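import Vale.Agent.P207.N3.H607.InX
import Vale.Agent.P207.N3.H607.RieP
import Vale.Agent.P207.N3.H156.DirA
import Vale.Agent.P207.N3.H76.Asm2

/-!
# P207, line N3: the Riemannian input over model (A), and the input structure `GeoIn` of the leaf
structure at every base point
-/

open scoped Manifold ContDiff ENNReal Topology
open Bundle MeasureTheory Set Filter

noncomputable section

set_option maxSynthPendingDepth 3
set_option linter.unusedSectionVars false

namespace Vale.Agent.P207.N3.H607

open Vale.Agent.P255 (RMetric Metric Npc ExpSys expg)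
open Vale.Agent.P207 Vale.Agent.P207.Q Vale.Agent.P207.N3.H465 Vale.Agent.P207.N3.H566
open Vale.Agent.P207.N3.H156 Vale.Agent.P207.N3.H728

section Model

variable {M : Type} [TopologicalSpace M] [ChartedSpace (EV 3) M]
  [IsManifold 𝓘(ℝ, EV 3) ∞ M] {g : RMetric (EV 3) M} [CompactSpace M] [T2Space M]
  [ConnectedSpace M] [Nonempty (Fr g)] (hN : NegCurvature g) (m : M)

/-- **the Riemannian input over model (A)** -/
def rieA : Rie (geoA hN m) (jA (npc_of_neg hN) m) where
  Gm := H265.Gm g m
  Gm_smooth := H265.contDiff_Gm (npc_of_neg hN) m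
  Gm_E x c c' := Gm_EX (npc_of_neg hN) m x c c'
  dg := H265.dg (npc_of_neg hN) m
  act_smooth γ := H566.contDiff_deck (locDif_e (npc_of_neg hN) m) γ
  gf := H566.gf (npc_of_neg hN) m
  gf_smooth := H566.contDiff_gf (npc_of_neg hN) m
  gf_E x s := (H566.gf_EX (npc_of_neg hN) m x H76.e0 s).symm

end Model

section Leaf

open Vale.Agent.P207.N3.H76

variable {Γ X Y : Type} [Group Γ] [MetricSpace X] [ProperSpace X] [MetricSpace Y]
  [ProperSpace Y] [MulAction Γ X] [MulAction Γ Y] [IsIsometricSMul Γ X] [IsIsometricSMul Γ Y]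
  {G : Geo Γ X Y} {V : Type} [NormedAddCommGroup V] [NormedSpace ℝ V] {j : Y ≃ₜ V}
  [FiniteDimensional ℝ V] {I : G.In3 j} {r₀ t₁ χ : ℝ} (hc : Geo.Cst I r₀ t₁ χ) (R : Rie G j)
  (o : Y)

theorem of_leaf : @Of Γ X Y _ _ _ _ _ _ _ _ _ G o r₀ (G.actB o) (G.contB o)
    (hc.leaf o) :=
  letI := G.actB o
  haveI := G.contB o
  { φ := fun _ _ => rfl
    rot := fun _ _ => rfl
    flip := fun _ => rfl
    em := fun _ => rfl
    lv := fun _ => rfl
    e := fun _ _ _ => rfl }

/-- **the input structure of the leaf structure at the base point `o`** -/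
def geoInL : H722.GeoIn (hc.leaf o) V :=
  letI := G.actB o
  haveI := G.contB o
  geoIn I.D R H459.invThm (hc.small o) (of_leaf hc o)

end Leaf

end Vale.Agent.P207.N3.H607
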